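import Vale.Agent.P011.D4X.H691.Na
import Vale.Agent.P011N.D1.Base
import Vale.Agent.P011N.D1.D4X.Defs

/-!
Version for big subgroups of `P011.D4X.H691.Na`.
-/

open NumberField Topology

set_option linter.unusedSectionVars false

namespace Vale.Agent.P011.D4X

open Vale.Agent.P011.MPQ Vale.Agent.P011.D4 Vale.Agent.P011.D4.Oct Vale.Agent.P011.E6

section model

variable {k L E : Type} [Field k] [Field L] [Field E] [Algebra k L] [Algebra k E] [Algebra L E]
  [IsScalarTower k L E] {ρ σ : E ≃ₐ[k] E} {ρL : L ≃ₐ[k] L} {α : E}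
  {a b c : kˣ} {q : Lˣ}

theorem mem_RsB {g : OctL E a b c ≃ₗ[E] OctL E a b c} : g ∈ RsB ρ σ α a b c q ↔
    ∃ h : g ∈ GT ρ σ α a b c q, (⟨g, h⟩ : GT ρ σ α a b c q) ∈ fresB (GT ρ σ α a b c q) := by
  rw [RsB, Subgroup.mem_map]
  constructor
  · rintro ⟨x, hx, rfl⟩
    exact ⟨x.2, hx⟩
  · rintro ⟨h, hx⟩
    exact ⟨_, hx, rfl⟩

theorem Rs_leB : RsB ρ σ α a b c q ≤ GT ρ σ α a b c q := fun _ h => (mem_RsB.1 h).1

theorem conj_mem_RsB (z : AT ρ σ α a b c q) {g : OctL E a b c ≃ₗ[E] OctL E a b c}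
    (h : g ∈ RsB ρ σ α a b c q) : z.1 * g * z.1⁻¹ ∈ RsB ρ σ α a b c q := by
  obtain ⟨h1, h2⟩ := mem_RsB.1 h
  have h3 := fres_mapB (conjG z) h2
  exact mem_RsB.2 ⟨_, h3⟩

variable (H : Hy ρ σ ρL α a b c q)

include H

/-- The normal subgroup `N`. -/
def Hy.NAB (H : Hy ρ σ ρL α a b c q) : Subgroup (AT ρ σ α a b c q) where
  carrier := {z | IsNB ρ σ α a b c q z}
  mul_mem' := by
    rintro z w ⟨l, g, hg, h1⟩ ⟨l', g', hg', h2⟩
    refine ⟨l * l', g * g', Subgroup.mul_mem _ hg hg', fun x => ?_⟩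
    change z.1 (w.1 x) = _
    rw [h2, map_smul, h1, smul_smul, LinearEquiv.mul_apply, Units.val_mul, map_mul,
      mul_comm (algebraMap L E (l : L))]
  one_mem' := ⟨1, 1, Subgroup.one_mem _, fun x => by
    rw [Units.val_one, map_one, one_smul]; rfl⟩
  inv_mem' := by
    rintro z ⟨l, g, hg, h1⟩
    refine ⟨l⁻¹, g⁻¹, Subgroup.inv_mem _ hg, fun x => ?_⟩
    have h2 : ∀ v, g (g⁻¹ v) = v := fun v => by
      rw [← LinearEquiv.mul_apply, mul_inv_cancel]; rfl
    have h3 : ∀ v, z.1 ((z⁻¹ : AT ρ σ α a b c q).1 v) = v := fun v => by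
      change (z * z⁻¹ : AT ρ σ α a b c q).1 v = v
      rw [mul_inv_cancel]; rfl
    apply z.1.injective
    rw [h3, map_smul, h1, h2, smul_smul, ← map_mul, Units.inv_mul, map_one, one_smul]

instance Hy.NA_normalB : H.NAB.Normal := ⟨by
  rintro z ⟨l, g, hg, h1⟩ w
  refine ⟨l, w.1 * g * w.1⁻¹, conj_mem_RsB w hg, fun x => ?_⟩
  change w.1 (z.1 (w.1⁻¹ x)) = _
  rw [h1, map_smul]
  rfl⟩

theorem Hy.NA_le_kerB : H.NAB ≤ (clT ρ σ α a b c q).ker := by
  rintro z ⟨l, g, hg, h1⟩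
  rw [MonoidHom.mem_ker, clT_eq_one_iff (isKap_kap z)]
  have h2 : z = H.scal l * ⟨g, GT_le_AT (Rs_leB hg)⟩ := by
    apply Subtype.ext
    apply LinearEquiv.ext
    intro x
    rw [h1, ← H.scal_apply]
    rfl
  rw [h2, kap_mul, kap_of_GT (Rs_leB hg), mul_one]
  exact scal_mem_SqL H l

/-- The elements of `GT` which lie in `NA` lie in the finite residual, if so do the scalars of
`GT`. -/
theorem mem_of_isNB (g : OctL E a b c ≃ₗ[E] OctL E a b c) (hg : g ∈ GT ρ σ α a b c q)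
    (h : IsNB ρ σ α a b c q ⟨g, GT_le_AT hg⟩) : g ∈ RsB ρ σ α a b c q := by
  obtain ⟨l, g', hg', h1⟩ := h
  have h1' : ∀ x, g x = algebraMap L E (l : L) • g' x := h1
  -- the scalar `l` has multiplier one
  have hg2 := Rs_leB hg'
  have h2 : algebraMap L E (l : L) = ρ (algebraMap L E (l : L)) * ρ (ρ (algebraMap L E (l : L))) := by
    have h3 := hg.1 1 1
    rw [tri_one_one, h1', tri_smul_left, tri_smul_right, smul_smul, ← hg2.1, tri_one_one] at h3
    have h4 : g' (1 : OctL E a b c) ≠ 0 := by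
      intro h5
      have h6 : (1 : OctL E a b c) = 0 := by
        apply g'.injective
        rw [h5, map_zero]
      have h7 := congrArg (fun x : OctL E a b c => x.fst.re) h6
      simp at h7
    exact smul_left_injective E h4 h3
  have hl0 : algebraMap L E (l : L) ≠ 0 :=
    (map_ne_zero_iff _ (algebraMap L E).injective).2 l.ne_zero
  have hl1 : algebraMap L E (l : L) = 1 := by
    -- `l = ρ l ρ² l`, so `N(l) = l²`, `ρ l = ± l`, and `l = 1`
    set t := algebraMap L E (l : L) with ht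
    have h3 : ρ t = ρ (ρ t) * t := by
      have := congrArg ρ h2
      rwa [map_mul, H.ρ3] at this
    have h4 : t = t * (ρ (ρ t)) ^ 2 := by
      linear_combination h2 + ρ (ρ t) * h3
    have h5 : (ρ (ρ t)) ^ 2 = 1 := by
      have := mul_left_cancel₀ hl0 (h4.symm.trans (mul_one t).symm)
      exact this
    have h6 : (ρ (ρ t) - 1) * (ρ (ρ t) + 1) = 0 := by linear_combination h5
    rcases mul_eq_zero.1 h6 with h7 | h7
    · have h8 : ρ (ρ t) = 1 := by linear_combination h7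
      have h9 := congrArg ρ h8
      rwa [H.ρ3, map_one] at h9
    · have h8 : ρ (ρ t) = -1 := by linear_combination h7
      have h9 := congrArg ρ h8
      rw [H.ρ3, map_neg, map_one] at h9
      have h10 := congrArg ρ h9
      rw [map_neg, map_one] at h10
      linear_combination h2 + ρ t * h8 - h10
  have h3 : g = g' := by
    apply LinearEquiv.ext
    intro x
    rw [h1', hl1, one_smul]
  rw [h3]
  exact hg'

end model

end Vale.Agent.P011.D4X
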