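import Vale.Agent.P011.D4X.H691.Tr
import Vale.Agent.P011N.D1.Base
import Vale.Agent.P011N.D1.D4X.Defs
import Vale.Agent.P011N.D1.D4X.H691.Na

/-!
Version for big subgroups of `P011.D4X.H691.Tr`.
-/

open NumberField Topology

set_option linter.unusedSectionVars false

namespace Vale.Agent.P011.D4X

open Vale.Agent.P011.MPQ Vale.Agent.P011.D4 Vale.Agent.P011.D4.Oct Vale.Agent.P011.E6

namespace H691

variable {k L E : Type} [Field k] [Field L] [Field E] [Algebra k L] [Algebra k E] [Algebra L E]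
  [IsScalarTower k L E] {ρ σ : E ≃ₐ[k] E} {ρL : L ≃ₐ[k] L} {α : E}
  {a b c : kˣ} {q : Lˣ}

variable [NeZero (2 : E)] {b' c' : kˣ} {j l : Oct a b c} (h : Trip a b' c' gi j l)

theorem cj_mem_RsB {g : OctL E a b' c' ≃ₗ[E] OctL E a b' c'} (hg : g ∈ RsB ρ σ α a b' c' q) :
    cjE (tripO E h) g ∈ RsB ρ σ α a b c q := by
  obtain ⟨h1, h2⟩ := mem_RsB.1 hg
  exact mem_RsB.2 ⟨_, fres_mapB (cjG ρ σ α q h) h2⟩

theorem cjA_isNB {z : AT ρ σ α a b' c' q} (hz : IsNB ρ σ α a b' c' q z) :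
    IsNB ρ σ α a b c q (cjA ρ σ α q h z) := by
  obtain ⟨l', g, hg, h1⟩ := hz
  refine ⟨l', _, cj_mem_RsB h hg, fun x => ?_⟩
  change cjE (tripO E h) z.1 x = _
  obtain ⟨x, rfl⟩ := (tripO E h).surjective x
  rw [cj_apply, cj_apply, h1, map_smul]

end H691

end Vale.Agent.P011.D4X
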