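import Vale.Agent.P011.D4X.H691.StabN
import Vale.Agent.P011N.D1.D4X.Defs
import Vale.Agent.P011N.D1.D4X.H553.Mix
import Vale.Agent.P011N.D1.D4X.H691.Na
import Vale.Agent.P011N.D1.D4X.H691.Tr

/-!
Version for big subgroups of `P011.D4X.H691.StabN`.
-/

open NumberField Topology

set_option linter.unusedSectionVars false

namespace Vale.Agent.P011.D4X

open Vale.Agent.P011.MPQ Vale.Agent.P011.D4 Vale.Agent.P011.D4.Oct Vale.Agent.P011.E6

section std

variable {k L E : Type} [Field k] [NumberField k] [Field L] [NumberField L] [Field E]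
  [Algebra k L] [Algebra k E] [Algebra L E]
  [IsScalarTower k L E] [NeZero (2 : E)] {ρ σ : E ≃ₐ[k] E} {ρL : L ≃ₐ[k] L} {α : E}
  {a b c : kˣ} {q : Lˣ} (H : Hy ρ σ ρL α a b c q)

include H

theorem stab0_NB {z : AT ρ σ α a b c q} (hz : z ∈ stab0 ρ σ α a b c q) (hcl : kap z ∈ SqL k L) :
    IsNB ρ σ α a b c q z := by
  obtain ⟨x0, x, s, l, h1, h2⟩ := cent H hz
  obtain ⟨z1, -, hz1, hz2⟩ := exists_z H x0 x s h1
  have hν0 : nrd x ≠ 0 := by
    intro h0
    rw [h0, zero_mul, zero_mul, mul_zero] at h1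
    exact pow_ne_zero 2 s.ne_zero ((map_eq_zero_iff _ (algebraMap k L).injective).1 h1.symm)
  have hν1 : ρL (nrd x) ≠ 0 := (map_ne_zero_iff ρL ρL.injective).2 hν0
  have e1 : z = H.scal l * z1 := by
    apply Subtype.ext
    apply LinearEquiv.ext
    intro y
    rw [h2, ← hz2, ← H.scal_apply]
    rfl
  have e2 : kap z1 = (Units.mk0 (ρL (nrd x)) hν1)⁻¹ := by
    apply kap_eq
    apply hz1
    rw [Units.val_inv_eq_inv_val]
    exact mul_inv_cancel₀ hν1
  -- the class of the reduced norm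
  have e3 : Units.mk0 (ρL (nrd x)) hν1 ∈ SqL k L := by
    rw [e1, kap_mul, e2] at hcl
    have h3 := (SqL k L).mul_mem ((SqL k L).inv_mem hcl) (scal_mem_SqL H l)
    have e4 : (kap (H.scal l) * (Units.mk0 (ρL (nrd x)) hν1)⁻¹)⁻¹ * kap (H.scal l) =
        Units.mk0 (ρL (nrd x)) hν1 := by
      rw [mul_inv, inv_inv, mul_comm (kap (H.scal l))⁻¹, mul_assoc, inv_mul_cancel, mul_one]
    rwa [e4] at h3
  obtain ⟨t, m1, h3⟩ := mem_SqL.1 e3
  obtain ⟨m, hm⟩ : ∃ m : Lˣ, (m : L) = ρL (ρL (m1 : L)) := ⟨Units.mk0 (ρL (ρL (m1 : L)))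
    ((map_ne_zero_iff ρL ρL.injective).2 ((map_ne_zero_iff ρL ρL.injective).2 m1.ne_zero)), rfl⟩
  have h4 : nrd x = algebraMap k L (t : k) * (m : L) ^ 2 := by
    have h5 : ρL (nrd x) = algebraMap k L (t : k) * (m1 : L) ^ 2 := by
      have := congrArg (fun u : Lˣ => (u : L)) h3
      exact this
    have h6 := congrArg (fun u => ρL (ρL u)) h5
    change ρL (ρL (ρL (nrd x))) = _ at h6
    rw [H.ρL3] at h6
    rw [h6, hm]
    simp only [map_mul, map_pow, AlgEquiv.commutes]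
  obtain ⟨n, hn⟩ := H.exists_norm m
  obtain ⟨x', hx'⟩ : ∃ x' : Qt (up L a) (q * up L b), x' = (m : L)⁻¹ • x := ⟨_, rfl⟩
  have hm0 : (m : L) ≠ 0 := m.ne_zero
  have hxx : x = (m : L) • x' := by
    rw [hx', smul_smul, mul_inv_cancel₀ hm0, one_smul]
  have hnx' : nrd x' = algebraMap k L (t : k) := by
    rw [hx', nrd_smulQ, h4]
    field_simp
  obtain ⟨s', hs'⟩ : ∃ s' : kˣ, s = n * s' := ⟨n⁻¹ * s, by rw [mul_inv_cancel_left]⟩
  have hs : algebraMap k L (s : k) = m * ρL m * ρL (ρL m) * algebraMap k L (s' : k) := by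
    rw [hs', Units.val_mul, map_mul, hn]
  -- the norm of the first component
  have hn0 : algebraMap k L (n : k) ≠ 0 :=
    (map_ne_zero_iff _ (algebraMap k L).injective).2 n.ne_zero
  have h7 : nrd x0 * (t : k) ^ 3 = (s' : k) ^ 2 := by
    apply (algebraMap k L).injective
    have h8 : algebraMap k L (nrd x0) * (algebraMap k L (t : k) ^ 3 * algebraMap k L (n : k) ^ 2) =
        (algebraMap k L (n : k) * algebraMap k L (s' : k)) ^ 2 := by
      rw [← map_mul (algebraMap k L) (n : k) (s' : k), ← Units.val_mul, ← hs',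
        ← map_pow (algebraMap k L) (s : k) 2, ← h1, h4]
      simp only [map_mul, map_pow, AlgEquiv.commutes]
      rw [hn]
      ring
    rw [map_mul, map_pow, map_pow]
    have h9 : algebraMap k L (n : k) ^ 2 ≠ 0 := pow_ne_zero 2 hn0
    apply mul_right_cancel₀ h9
    linear_combination h8
  have ht0 : (t : k) ≠ 0 := t.ne_zero
  have hs0 : (s' : k) ≠ 0 := s'.ne_zero
  have h10 : nrd (((t : k) ^ 2 / (s' : k)) • x0) = (t : k) := by
    rw [nrd_smulQ]
    field_simp
    linear_combination h7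
  -- the scalar and the element of `GT`
  obtain ⟨r, hr⟩ : ∃ r : Lˣ, (r : L) = l * (m * ρL (ρL m)) * algebraMap k L (t : k) :=
    ⟨Units.mk0 _ (mul_ne_zero (mul_ne_zero l.ne_zero (mul_ne_zero hm0
      ((map_ne_zero_iff ρL ρL.injective).2 ((map_ne_zero_iff ρL ρL.injective).2 hm0))))
      ((map_ne_zero_iff _ (algebraMap k L).injective).2 ht0)), rfl⟩
  have hg : ∀ y, ((H.scal r)⁻¹ * z : AT ρ σ α a b c q).1 y = (algebraMap k E (t : k))⁻¹ •
      zF ρ ρL α q (((t : k) ^ 2 / (s' : k)) • x0) x' (t ^ 2) y := by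
    intro y
    have h11 : z.1 y = algebraMap L E (r : L) • ((algebraMap k E (t : k))⁻¹ •
        zF ρ ρL α q (((t : k) ^ 2 / (s' : k)) • x0) x' (t ^ 2) y) := by
      have hE : algebraMap k E (t : k) = algebraMap L E (algebraMap k L (t : k)) :=
        IsScalarTower.algebraMap_apply k L E _
      have hE0 : algebraMap L E (algebraMap k L (t : k)) ≠ 0 :=
        (map_ne_zero_iff _ (algebraMap L E).injective).2
          ((map_ne_zero_iff _ (algebraMap k L).injective).2 ht0)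
      rw [h2, hxx, zF_scal H hnx' hs, smul_smul, smul_smul, hr, hE]
      congr 1
      simp only [map_mul]
      field_simp
    apply (H.scal r).1.injective
    rw [H.scal_apply, H.scal_apply, ← h11, ← H.scal_apply]
    change (H.scal r * ((H.scal r)⁻¹ * z) : AT ρ σ α a b c q).1 y = z.1 y
    rw [mul_inv_cancel_left]
  refine ⟨r, _, mix_memB H (s := t) h10 hnx' hg, fun y => ?_⟩
  rw [← H.scal_apply]
  change z.1 y = (H.scal r * ((H.scal r)⁻¹ * z) : AT ρ σ α a b c q).1 y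
  rw [mul_inv_cancel_left]

theorem stab_NB {b' c' : kˣ} {j l : Oct a b c} (h : Trip a b' c' gi j l) {z : AT ρ σ α a b c q}
    (hz : z ∈ stab ρ σ α q h) {κ : Lˣ} (hκ : IsKap ρ z.1 κ) (hcl : κ ∈ SqL k L) :
    IsNB ρ σ α a b c q z := by
  obtain ⟨z', hz', rfl⟩ := H691.exists_of_mem_stab h hz
  refine H691.cjA_isNB h (stab0_NB (H691.hyTrip H h) hz' ?_)
  rw [← H691.kap_cjA h, kap_eq hκ]
  exact hcl

end std

end Vale.Agent.P011.D4X
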