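import Vale.Agent.P011.D4X.H691.OpenX
import Vale.Agent.P011N.D1.D4X.Defs
import Vale.Agent.P011N.D1.D4X.H691.FinX
import Vale.Agent.P011N.D1.D4X.H691.Na

/-!
Version for big subgroups of `P011.D4X.H691.OpenX`.
-/

open NumberField Topology Filter

set_option linter.unusedSectionVars false

namespace Vale.Agent.P011.D4X

open Vale.Agent.P011.MPQ Vale.Agent.P011.D4 Vale.Agent.P011.D4.Oct Vale.Agent.P011.E6

open Vale.Agent.P011.D4X Vale.Agent.P011.D4X.H691

section fin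

variable {k L E : Type} [Field k] [NumberField k] [Field L] [NumberField L] [Field E]
  [Algebra k L] [Algebra k E] [Algebra L E]
  [IsScalarTower k L E] [NeZero (2 : E)] {ρ σ : E ≃ₐ[k] E} {ρL : L ≃ₐ[k] L} {α : E}
  {a b c : kˣ} {q : Lˣ} (H : Hy ρ σ ρL α a b c q)

include H

/-- The elements close to one lie in the finite residual. -/
theorem open_ofB {S : Set (E →+* ℂ)} (hS : S.Finite) {v : OctL E a b c} (hv : Pt ρ v)
    (hgen : ∀ᶠ x in nh S v, Pt ρ x → PPP (PosC k L a) ρ σ α q x)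
    (hgen2 : ∀ (z : AT ρ σ α a b c q) (t : E), z.1 (ep α) = t • ep α → kap z ∈ PosC k L a →
      z ∈ stabsP (PosC k L a) ρ σ α a b c q)
    (hle : ∀ {b' c' : kˣ} {j l : Oct a b c} (h : Trip a b' c' gi j l) {z : AT ρ σ α a b c q},
      z ∈ stab ρ σ α q h → kap z ∈ PosC k L a → z ∈ H.NAB ⊔ stab0 ρ σ α a b c q)
    (hstabN : ∀ {z : AT ρ σ α a b c q}, z ∈ stab0 ρ σ α a b c q → kap z ∈ SqL k L →
      IsNB ρ σ α a b c q z) :
    ∃ ε : ℝ, 0 < ε ∧ ∀ g : OctL E a b c ≃ₗ[E] OctL E a b c, g ∈ GT ρ σ α a b c q →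
      (∀ w ∈ S, ∀ x, on w (g x - x) ≤ ε * on w x) → g ∈ RsB ρ σ α a b c q := by
  obtain ⟨ε, hε, h1⟩ := exists_eps_map hS hgen
  refine ⟨ε, hε, fun g hg hn => ?_⟩
  have h0 := h1 (fun x => x) (fun w hw x => by
    have h2 : on w (x - x) = 0 := by
      rw [sub_self]
      apply Finset.sum_eq_zero
      intro i _
      have : co8 (0 : OctL E a b c) i = 0 := by fin_cases i <;> rfl
      rw [this, map_zero, _root_.norm_zero]
    rw [h2]
    exact mul_nonneg hε.le (on_nonneg w x)) hv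
  have hκ : kap (⟨g, GT_le_AT hg⟩ : AT ρ σ α a b c q) ∈ PosC k L a := by
    rw [kap_of_GT hg]
    exact Subgroup.one_mem _
  exact mem_Rs_of_stabsPB H hle hstabN hg (mem_stabsP_of_PP hgen2 h0 hκ
    (h1 (fun x => g x) hn ⟨fun h => hv.1 (g.injective (h.trans (map_zero g).symm)), by
      rw [← hg.1, hv.2, map_zero]⟩))

end fin

end Vale.Agent.P011.D4X
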